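import Vale.Agent.Lib.P324.Fam.Defs

namespace Vale.Agent.Lib.P324.Fam

lemma count_lt {m r : ℕ} (hr : 1 ≤ r) (hrm : r * (r - 1) < m) :
    (r - 1) * m < r * (m + 1 - r) := by
  obtain ⟨q, rfl⟩ : ∃ q, r = q + 1 := ⟨r - 1, by omega⟩
  simp only [Nat.add_sub_cancel] at hrm ⊢
  have hq : q ≤ m := by nlinarith
  obtain ⟨c, rfl⟩ : ∃ c, m = c + q := ⟨m - q, by omega⟩
  have h7 : c + q + 1 - (q + 1) = c := by omega
  rw [h7]
  nlinarith

lemma exists_late_source {m r k T : ℕ} (hr : 1 ≤ r) (hrm : r * (r - 1) < m) {τ : HV m r k → ℕ}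
    (h : IsSchedule m T (hE m r k) τ) (b : Fin k) (s : ℕ)
    (hlow : ∀ v : HV m r k, v.1 = b → s + 1 ≤ τ v) :
    ∃ (i : Fin r) (y : Fin (m + 1 - r)), s + r ≤ τ (b, i, Sum.inl y) := by
  by_contra hcon
  have hup : ∀ (i : Fin r) (y : Fin (m + 1 - r)), τ (b, i, Sum.inl y) ≤ s + r - 1 := by
    intro i y
    by_contra hlt
    exact hcon ⟨i, y, by omega⟩
  obtain ⟨_, hcard, _⟩ := h
  let g : Fin r × Fin (m + 1 - r) → HV m r k := fun p => (b, p.1, Sum.inl p.2)
  have hg : Function.Injective g := by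
    rintro ⟨i, y⟩ ⟨i', y'⟩ hij
    simp only [g, Prod.mk.injEq, Sum.inl.injEq, true_and] at hij
    exact Prod.ext hij.1 hij.2
  have hsub : Finset.univ.image g ⊆ (Finset.Icc (s + 1) (s + r - 1)).biUnion
      (fun t => Finset.univ.filter (fun v => τ v = t)) := by
    intro v hv
    obtain ⟨p, _, rfl⟩ := Finset.mem_image.mp hv
    rw [Finset.mem_biUnion]
    refine ⟨τ (g p), Finset.mem_Icc.2 ⟨hlow _ rfl, hup p.1 p.2⟩, ?_⟩
    simp
  have h4 : (Finset.univ.image g).card = r * (m + 1 - r) := by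
    rw [Finset.card_image_of_injective _ hg]
    simp
  have h5 := Finset.card_le_card hsub
  have h6 : ((Finset.Icc (s + 1) (s + r - 1)).biUnion
      (fun t => Finset.univ.filter (fun v => τ v = t))).card ≤ (r - 1) * m := by
    refine le_trans Finset.card_biUnion_le ?_
    refine le_trans (Finset.sum_le_card_nsmul _ _ m (fun t _ => hcard t)) ?_
    rw [Nat.card_Icc, smul_eq_mul]
    have : s + r - 1 + 1 - (s + 1) = r - 1 := by omega
    rw [this]
  rw [h4] at h5
  have h8 : r * (m + 1 - r) ≤ (r - 1) * m := h5.trans h6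
  exact absurd h8 (not_le.2 (count_lt hr hrm))

/-- A block needs `2 r - 1` slots if `r (r - 1) < m`.
Proof.  (1) Some source `x = (b, i, inl y)` has `s + r ≤ τ x`: otherwise all `r (m + 1 - r)` sources of the
block (image of the injective map `(i, y) ↦ (b, i, inl y)`) lie in the slots `s+1, ..., s+r-1`, which hold at
most `(r - 1) m` jobs (`Finset.card_le_card` into a `biUnion` over `Finset.Icc (s+1) (s+r-1)`,
`Finset.card_biUnion_le`), but `(r - 1) m < r (m + 1 - r)` because `r (r - 1) < m` (write `m = m' + r`...,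
`nlinarith`).  (2) By induction on `j`: `τ x + j + 1 ≤ τ (b, i, inr j)` (arcs inside the side).
(3) If `r = 1` take `v = x`; otherwise take `v = (b, i, inr (r - 2))`. -/
theorem h_block_step {m r k T : ℕ} (hr : 1 ≤ r) (hrm : r * (r - 1) < m) {τ : HV m r k → ℕ}
    (h : IsSchedule m T (hE m r k) τ) (b : Fin k) (s : ℕ)
    (hlow : ∀ v : HV m r k, v.1 = b → s + 1 ≤ τ v) :
    ∃ v : HV m r k, v.1 = b ∧ s + (2 * r - 1) ≤ τ v := by
  obtain ⟨i, y, hx⟩ := exists_late_source hr hrm h b s hlow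
  have harc := h.2.2
  have hchain : ∀ (j : ℕ) (hj : j < r - 1),
      τ (b, i, Sum.inl y) + j + 1 ≤ τ (b, i, Sum.inr ⟨j, hj⟩) := by
    intro j
    induction j with
    | zero =>
      intro hj
      have := harc (b, i, Sum.inl y) (b, i, Sum.inr ⟨0, hj⟩)
        (Or.inr ⟨rfl, rfl, by simp [lvl]⟩)
      omega
    | succ j ih =>
      intro hj
      have h1 := ih (by omega)
      have := harc (b, i, Sum.inr ⟨j, by omega⟩) (b, i, Sum.inr ⟨j + 1, hj⟩)
        (Or.inr ⟨rfl, rfl, by simp [lvl]⟩)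
      omega
  rcases Nat.lt_or_ge r 2 with h1 | h2
  · exact ⟨(b, i, Sum.inl y), rfl, by omega⟩
  · have := hchain (r - 2) (by omega)
    exact ⟨(b, i, Sum.inr ⟨r - 2, by omega⟩), rfl, by omega⟩

end Vale.Agent.Lib.P324.Fam
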