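import Vale.Agent.Lib.P324.ThreeGap

namespace Vale.Agent.Lib.P324.Fam

/-- jobs: `k` blocks; a block has `r` sides; a side has `m + 1 - r` sources (`inl`) and a chain of
`r - 1` further jobs (`inr`) above all its sources -/
abbrev HV (m r k : ℕ) : Type := Fin k × Fin r × (Fin (m + 1 - r) ⊕ Fin (r - 1))

/-- level inside a side: sources have level `0`, the `j`-th chain job has level `j + 1` -/
def lvl {a b : ℕ} : Fin a ⊕ Fin b → ℕ := Sum.elim (fun _ => 0) (fun j => j.val + 1)

/-- arcs: every job of a block precedes every job of all later blocks; inside a side of a block the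
jobs are ordered by their level -/
def hE (m r k : ℕ) (u v : HV m r k) : Prop :=
  u.1.val < v.1.val ∨ (u.1.val = v.1.val ∧ u.2.1 = v.2.1 ∧ lvl u.2.2 < lvl v.2.2)

/-- the packing: the job of level `l` of side `i` goes to the class `(i + l) mod r` of its block -/
def hSigma (m r k : ℕ) (u : HV m r k) : ℕ := r * u.1.val + (u.2.1.val + lvl u.2.2) % r + 1

lemma lvl_lt {a b : ℕ} (x : Fin a ⊕ Fin b) : lvl x < b + 1 := by
  cases x with
  | inl _ => simp [lvl]
  | inr j => simp [lvl]

lemma hE_trans {m r k : ℕ} {u v : HV m r k} (h : Relation.TransGen (hE m r k) u v) :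
    hE m r k u v := by
  induction h with
  | single h => exact h
  | tail _ h2 ih =>
    unfold hE at *
    rcases ih with h | ⟨h1, h3, h4⟩
    · rcases h2 with h' | ⟨h1', -⟩
      · left; omega
      · left; omega
    · rcases h2 with h' | ⟨h1', h3', h4'⟩
      · left; omega
      · right; exact ⟨h1.trans h1', h3.trans h3', h4.trans h4'⟩

lemma hE_acyclic (m r k : ℕ) : Acyclic (hE m r k) := by
  intro v h
  have := hE_trans h
  unfold hE at this
  rcases this with h | ⟨-, -, h4⟩
  · omega
  · omega

lemma h_card {m r : ℕ} (hr : 1 ≤ r) (hrm : r ≤ m) (k : ℕ) :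
    Fintype.card (HV m r k) = r * m * k := by
  simp only [Fintype.card_prod, Fintype.card_fin, Fintype.card_sum]
  have : m + 1 - r + (r - 1) = m := by omega
  rw [this]
  ring

end Vale.Agent.Lib.P324.Fam
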