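import Vale.Agent.Lib.P324.Fam.Packing
import Vale.Agent.Lib.P324.Fam.Block

namespace Vale.Agent.Lib.P324.Fam

lemma h_lower_aux {m r k T : ℕ} (hr : 1 ≤ r) (hrm : r * (r - 1) < m) {τ : HV m r k → ℕ}
    (h : IsSchedule m T (hE m r k) τ) :
    ∀ b (hb : b < k), ∃ v : HV m r k, v.1 = ⟨b, hb⟩ ∧ (2 * r - 1) * (b + 1) ≤ τ v := by
  intro b
  induction b with
  | zero =>
    intro hb
    obtain ⟨v, hv, hv2⟩ := h_block_step hr hrm h ⟨0, hb⟩ 0 (fun v _ => by
      have := (h.1 v).1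
      omega)
    exact ⟨v, hv, by simpa using hv2⟩
  | succ b ih =>
    intro hb
    obtain ⟨w, hw, hw2⟩ := ih (by omega)
    obtain ⟨v, hv, hv2⟩ := h_block_step hr hrm h ⟨b + 1, hb⟩ ((2 * r - 1) * (b + 1)) (fun v hv => by
      have := h.2.2 w v (Or.inl (by rw [hw, hv]; simp))
      omega)
    refine ⟨v, hv, ?_⟩
    have : (2 * r - 1) * (b + 1 + 1) = (2 * r - 1) * (b + 1) + (2 * r - 1) := by ring
    omega

lemma h_lower {m r k T : ℕ} (hr : 1 ≤ r) (hrm : r * (r - 1) < m) {τ : HV m r k → ℕ}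
    (h : IsSchedule m T (hE m r k) τ) : (2 * r - 1) * k ≤ T := by
  rcases Nat.eq_zero_or_pos k with hk | hk
  · subst hk; simp
  · obtain ⟨v, _, hv⟩ := h_lower_aux hr hrm h (k - 1) (by omega)
    have := (h.1 v).2
    have e : k - 1 + 1 = k := by omega
    rw [e] at hv
    omega

lemma h_packing_lower {m r k T : ℕ} (hr : 1 ≤ r) (hrm : r ≤ m) {σ : HV m r k → ℕ}
    (h : IsAntichainPacking m T (hE m r k) σ) : r * k ≤ T := by
  have h1 := packing_card h
  rw [h_card hr hrm] at h1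
  have h2 : m * (r * k) ≤ m * T := by
    calc m * (r * k) = r * m * k := by ring
      _ ≤ m * T := h1
  exact Nat.le_of_mul_le_mul_left h2 (by omega)

end Vale.Agent.Lib.P324.Fam
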