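import Vale.Agent.Lib.P324.Fam.Defs

namespace Vale.Agent.Lib.P324.Fam

lemma divmod_unique {r b b' x x' : ℕ} (hx : x < r) (hx' : x' < r)
    (h : r * b + x = r * b' + x') : b = b' ∧ x = x' := by
  have h1 : (r * b + x) % r = x := by
    rw [Nat.mul_add_mod]
    exact Nat.mod_eq_of_lt hx
  have h2 : (r * b' + x') % r = x' := by
    rw [Nat.mul_add_mod]
    exact Nat.mod_eq_of_lt hx'
  have hxx : x = x' := by rw [← h1, ← h2, h]
  subst hxx
  have h3 : r * b = r * b' := by omega
  exact ⟨Nat.eq_of_mul_eq_mul_left (by omega) h3, rfl⟩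

lemma lvl_lt_r {m r : ℕ} (hr : 1 ≤ r) (x : Fin (m + 1 - r) ⊕ Fin (r - 1)) : lvl x < r := by
  have := lvl_lt x
  omega

/-- `hSigma` is a packing into `r k` antichains of size at most `m`.
Range: `(..) % r < r` and `r * b + r ≤ r * k` for `b < k`.
Capacity: on a fibre of `hSigma` the map `u ↦ u.2.2` into `Fin (m+1-r) ⊕ Fin (r-1)` (cardinality `m`) is
injective: from `r*b + x + 1 = r*b' + x' + 1` with `x, x' < r` get `b = b'`, `x = x'`; then
`(i + l) % r = (i' + l) % r` with `i, i' < r` gives `i = i'` (`Nat.ModEq.add_right_cancel'`,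
`Nat.mod_eq_of_lt`).  Compare `g_fiber_le` in `Lib/P324/GenGap.lean`.
Antichains: use `hE_trans`.  Different blocks: the labels lie in disjoint ranges.  Same block and side,
levels `l < l' < r` (`lvl_lt`): `(i + l) % r = (i + l') % r` is impossible. -/
theorem h_packing {m r : ℕ} (hr : 1 ≤ r) (hrm : r ≤ m) (k : ℕ) :
    IsAntichainPacking m (r * k) (hE m r k) (hSigma m r k) := by
  have hr0 : 0 < r := hr
  refine ⟨?_, ?_, ?_⟩
  · rintro ⟨b, i, x⟩
    simp only [hSigma]
    have h1 : (i.val + lvl x) % r < r := Nat.mod_lt _ hr0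
    have h2 : r * (b.val + 1) ≤ r * k := Nat.mul_le_mul_left r b.isLt
    rw [Nat.mul_add, Nat.mul_one] at h2
    omega
  · intro t
    have h1 : (Finset.univ.filter (fun v : HV m r k => hSigma m r k v = t)).card
        ≤ (Finset.univ : Finset (Fin (m + 1 - r) ⊕ Fin (r - 1))).card := by
      apply Finset.card_le_card_of_injOn (fun u => u.2.2)
      · intro v _
        exact Finset.mem_coe.2 (Finset.mem_univ _)
      · rintro ⟨b, i, x⟩ hu ⟨b', i', x'⟩ hv huv
        have hu' : hSigma m r k (b, i, x) = t := by simpa using hu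
        have hv' : hSigma m r k (b', i', x') = t := by simpa using hv
        have hxx : x = x' := huv
        subst hxx
        have he := hu'.trans hv'.symm
        simp only [hSigma] at he
        obtain ⟨hb, hi⟩ := divmod_unique (Nat.mod_lt _ hr0) (Nat.mod_lt _ hr0)
          (Nat.add_right_cancel he)
        have hb' : b = b' := Fin.ext hb
        have hi' : i = i' := by
          apply Fin.ext
          have hmod : i.val ≡ i'.val [MOD r] := Nat.ModEq.add_right_cancel' (lvl x) hi
          exact Nat.ModEq.eq_of_lt_of_lt hmod i.isLt i'.isLt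
        subst hb'
        subst hi'
        rfl
    have h2 : (Finset.univ : Finset (Fin (m + 1 - r) ⊕ Fin (r - 1))).card = m := by
      rw [Finset.card_univ, Fintype.card_sum, Fintype.card_fin, Fintype.card_fin]
      omega
    omega
  · rintro ⟨b, i, x⟩ ⟨b', i', x'⟩ h
    have h' := hE_trans h
    simp only [hE] at h'
    simp only [hSigma]
    intro he
    obtain ⟨hb, hi⟩ := divmod_unique (Nat.mod_lt _ hr0) (Nat.mod_lt _ hr0)
      (Nat.add_right_cancel he)
    rcases h' with h' | ⟨-, h3, h4⟩
    · omega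
    · subst h3
      have hmod : lvl x ≡ lvl x' [MOD r] := Nat.ModEq.add_left_cancel' i.val hi
      have := Nat.ModEq.eq_of_lt_of_lt hmod (lvl_lt_r hr x) (lvl_lt_r hr x')
      omega

end Vale.Agent.Lib.P324.Fam
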